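import Vale.Agent.P004S.Ch.Tau
import Mathlib.Analysis.SumIntegralComparisons

/-!
P004, block SMITH: from the analytic data to the count of primes in an interval.
-/

set_option linter.all false

namespace Vale.Agent.P004S.Ch

open Finset

theorem abel (c w : ℕ → ℝ) (t t' : ℕ) (M : ℝ) (hw : ∀ n, t ≤ n → w (n + 1) ≤ w n)
    (hR : ∀ x, t ≤ x → x ≤ t' → |∑ n ∈ Ioc t x, c n| ≤ M) (x : ℕ) (hx : t ≤ x) (hx' : x ≤ t') :
    |∑ n ∈ Ioc t x, c n * w n - (∑ n ∈ Ioc t x, c n) * w x| ≤ M * (w t - w x) := by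
  induction x, hx using Nat.le_induction with
  | base => simp
  | succ x hx ih =>
    have h1 := ih (by omega)
    have h2 := hR x hx (by omega)
    have h3 : 0 ≤ w x - w (x + 1) := sub_nonneg.2 (hw x hx)
    rw [sum_Ioc_succ_top hx, sum_Ioc_succ_top hx]
    generalize ∑ n ∈ Ioc t x, c n * w n = A at h1 ⊢
    generalize ∑ n ∈ Ioc t x, c n = R at h1 h2 ⊢
    have e : A + c (x + 1) * w (x + 1) - (R + c (x + 1)) * w (x + 1) =
        (A - R * w x) + R * (w x - w (x + 1)) := by ring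
    have h4 : |R * (w x - w (x + 1))| ≤ M * (w x - w (x + 1)) := by
      rw [abs_mul, abs_of_nonneg h3]
      exact mul_le_mul_of_nonneg_right h2 h3
    rw [e]
    refine (abs_add_le _ _).trans ?_
    linarith

theorem log_half {x : ℝ} (hx : 2 ≤ x) : 1 / 2 ≤ Real.log x := by
  have := Real.log_le_log (by norm_num) hx
  linarith [Real.log_two_gt_d9]

theorem inv_anti' {x y : ℝ} (hx : 2 ≤ x) (hxy : x ≤ y) : 1 / Real.log y ≤ 1 / Real.log x :=
  one_div_le_one_div_of_le (by linarith [log_half hx]) (Real.log_le_log (by linarith) hxy)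

theorem inv_le_two {x : ℝ} (hx : 2 ≤ x) : 1 / Real.log x ≤ 2 := by
  rw [div_le_iff₀ (by linarith [log_half hx])]
  linarith [log_half hx]

theorem inv_pos' {x : ℝ} (hx : 2 ≤ x) : 0 < 1 / Real.log x :=
  one_div_pos.2 (by linarith [log_half hx])

theorem sum_int {t t' : ℕ} (ht : 2 ≤ t) (h : t ≤ t') :
    |∑ n ∈ Ioc t t', 1 / Real.log n - ∫ u in (t : ℝ)..t', 1 / Real.log u| ≤ 2 := by
  have ht' : (2 : ℝ) ≤ t := by exact_mod_cast ht
  have hh : (t : ℝ) ≤ t' := by exact_mod_cast h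
  have ha : AntitoneOn (fun u : ℝ => 1 / Real.log u) (Set.Icc t t') :=
    fun x hx y _ hxy => inv_anti' (ht'.trans hx.1) hxy
  have h1 := ha.integral_le_sum_Ico h
  have h2 := ha.sum_le_integral_Ico h
  have e0 : Ico (t + 1) (t' + 1) = Ioc t t' := by
    ext n
    simp only [mem_Ico, mem_Ioc]
    omega
  have e1 : ∑ n ∈ Ico t t', 1 / Real.log ((n + 1 : ℕ) : ℝ) = ∑ n ∈ Ioc t t', 1 / Real.log n := by
    rw [sum_Ico_add' (fun n : ℕ => 1 / Real.log (n : ℝ)) t t' 1, e0]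
  have e2 : ∑ n ∈ Ico t t', 1 / Real.log (n : ℝ) + 1 / Real.log t' =
      1 / Real.log t + ∑ n ∈ Ioc t t', 1 / Real.log n := by
    rw [← sum_Ico_succ_top h, sum_eq_sum_Ico_succ_bot (by omega), e0]
  have h3 := inv_le_two ht'
  have h4 := inv_pos' (ht'.trans hh)
  rw [abs_le]
  constructor <;> linarith

theorem cnt0 (a : ℕ → ℝ) {t t' : ℕ} {M : ℝ} (ht : 2 ≤ t) (h : t ≤ t')
    (hR : ∀ x : ℕ, t ≤ x → x ≤ t' → |∑ n ∈ Ioc t x, Real.log n * a n - ((x : ℝ) - t)| ≤ M) :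
    |∑ n ∈ Ioc t t', a n - ∫ u in (t : ℝ)..t', 1 / Real.log u| ≤ 2 * M + 2 := by
  have ht' : (2 : ℝ) ≤ t := by exact_mod_cast ht
  have hh : (t : ℝ) ≤ t' := by exact_mod_cast h
  have hR' : ∀ x, t ≤ x → x ≤ t' → |∑ n ∈ Ioc t x, (Real.log n * a n - 1)| ≤ M := by
    intro x h1 h2
    have := hR x h1 h2
    rwa [sum_sub_distrib, sum_const, Nat.card_Ioc, nsmul_eq_mul, mul_one, Nat.cast_sub h1]
  have h1 := abel (fun n => Real.log n * a n - 1) (fun n => 1 / Real.log n) t t' M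
    (fun n hn => inv_anti' (ht'.trans (by exact_mod_cast hn)) (by push_cast; linarith)) hR' t' h
    le_rfl
  have h2 := hR' t' h le_rfl
  have hM : 0 ≤ M := (abs_nonneg _).trans h2
  have e : ∑ n ∈ Ioc t t', (Real.log n * a n - 1) * (1 / Real.log n) =
      ∑ n ∈ Ioc t t', a n - ∑ n ∈ Ioc t t', 1 / Real.log n := by
    rw [← sum_sub_distrib]
    refine sum_congr rfl fun n hn => ?_
    have h3 : (2 : ℝ) ≤ n := by exact_mod_cast ht.trans (mem_Ioc.1 hn).1.le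
    have h4 : Real.log n ≠ 0 := by linarith [log_half h3]
    field_simp
  have h3 := sum_int ht h
  have h4 := inv_pos' (ht'.trans hh)
  have h5 := mul_le_mul_of_nonneg_left (inv_le_two ht') hM
  have h6 : |(∑ n ∈ Ioc t t', (Real.log n * a n - 1)) * (1 / Real.log t')| ≤
      M * (1 / Real.log t') := by
    rw [abs_mul, abs_of_pos h4]
    exact mul_le_mul_of_nonneg_right h2 h4.le
  simp only [e] at h1
  rw [abs_le] at h1 h3 h6 ⊢
  constructor <;> linarith [h1.1, h1.2, h3.1, h3.2, h6.1, h6.2]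

theorem cnt {θ : ℝ} (hθ0 : 0 ≤ θ) (hθ : θ < 1) : ∃ C δ : ℝ, 0 ≤ C ∧ 0 < δ ∧
    ∀ (a : ℕ → ℝ) (S : ℝ) (g : ℂ → ℂ), 1 ≤ S → (∀ n, 0 ≤ a n) → (∀ n, a n ≤ S) →
      DifferentiableOn ℂ g {s | θ < s.re} → (∀ s : ℂ, θ < s.re → g s ≠ 0) →
      (∀ s : ℂ, 1 < s.re → g s = (s - 1) * Complex.exp (LSeries (fun n => (a n : ℂ)) s)) →
      (∀ s : ℂ, θ < s.re → s.re ≤ 2 → ‖g s‖ ≤ Real.exp (S * (1 + |s.im|))) →
      ∀ t t' : ℕ, 2 ≤ t → t ≤ t' → t' ≤ 2 * t →
        |∑ n ∈ Ioc t t', a n - ∫ u in (t : ℝ)..t', 1 / Real.log u| ≤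
          C * S * (t : ℝ) ^ (1 - δ) := by
  obtain ⟨C₁, h10, H1⟩ := asym hθ0 hθ
  obtain ⟨C₂, h20, H2⟩ := taub (σ := (1 + θ) / 2) (by linarith) (by linarith)
  refine ⟨2 * (C₂ * (C₁ + 1)) + 2, (1 - (1 + θ) / 2) / 5, by positivity, by linarith,
    fun a S g hS a0 a1 g1 g2 g3 g4 t t' ht h h' => ?_⟩
  have hE : S ≤ (C₁ + 1) * S := le_mul_of_one_le_left (by linarith) (by linarith)
  have H := H2 (fun n => Real.log n * a n) ((C₁ + 1) * S) (hS.trans hE)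
    (fun n => mul_nonneg (Real.log_natCast_nonneg n) (a0 n))
    (fun n => by
      rw [mul_comm]
      exact mul_le_mul_of_nonneg_right ((a1 n).trans hE) (Real.log_natCast_nonneg n))
    (fun l u hl hl1 hu => by
      obtain ⟨T, hT1, hT2⟩ := H1 a S g hS a0 a1 g1 g2 g3 g4 l u hl hl1 hu
      refine ⟨T, hT1, hT2.trans ?_⟩
      have : C₁ * S ≤ (C₁ + 1) * S := mul_le_mul_of_nonneg_right (by linarith) (by linarith)
      gcongr)
  have h1 := cnt0 a ht h fun x hx hx' => H t x (by omega) hx (by omega)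
  have h2 : (1 : ℝ) ≤ (t : ℝ) ^ (1 - (1 - (1 + θ) / 2) / 5) :=
    Real.one_le_rpow (by exact_mod_cast (by omega : 1 ≤ t)) (by linarith)
  generalize (t : ℝ) ^ (1 - (1 - (1 + θ) / 2) / 5) = Y at h1 h2 ⊢
  have h3 : 1 ≤ S * Y := one_le_mul_of_one_le_of_one_le hS h2
  refine h1.trans ?_
  linarith

end Vale.Agent.P004S.Ch
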