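import Vale.Agent.P016Z.Cheb.Gauss
import Mathlib.MeasureTheory.Integral.Prod
import Mathlib.Analysis.SpecialFunctions.ImproperIntegrals
import Mathlib.Analysis.SpecialFunctions.Gaussian.GaussianIntegral

/-!
P004, block CHB: smoothed prime sums with a narrow Gaussian weight.
-/

set_option linter.all false

namespace Vale.Agent.P004S.Ch

open Complex Metric Set Filter Topology MeasureTheory Vale.Agent.P016Z.Cheb

/-- the kernel -/
noncomputable def kr (l u : ℝ) (s : ℂ) : ℂ := exp (u * s + (l : ℂ) ^ 2 * s ^ 2)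

/-- the weight -/
noncomputable def W (l v : ℝ) : ℝ := Real.sqrt Real.pi / l * Real.exp (-v ^ 2 / (4 * l ^ 2))

variable {l : ℝ}

theorem W_nonneg (hl : 0 < l) (v : ℝ) : 0 ≤ W l v := by unfold W; positivity

theorem W_cont (l : ℝ) : Continuous (W l) := by unfold W; fun_prop

theorem W_eq (v : ℝ) :
    W l v = Real.sqrt Real.pi / l * Real.exp (-(1 / (4 * l ^ 2)) * v ^ 2) := by
  unfold W
  congr 2
  ring

theorem W_int (hl : 0 < l) : Integrable (W l) := by
  have := (integrable_exp_neg_mul_sq (show 0 < 1 / (4 * l ^ 2) by positivity)).const_mul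
    (Real.sqrt Real.pi / l)
  exact this.congr (ae_of_all _ fun v => (W_eq v).symm)

theorem int_W (hl : 0 < l) : ∫ v, W l v = 2 * Real.pi := by
  simp only [W_eq]
  rw [integral_const_mul, integral_gaussian]
  have e : Real.pi / (1 / (4 * l ^ 2)) = (2 * l) ^ 2 * Real.pi := by field_simp; ring
  rw [e, Real.sqrt_mul (by positivity), Real.sqrt_sq (by positivity)]
  have := Real.mul_self_sqrt Real.pi_pos.le
  field_simp
  nlinarith

theorem norm_kr (u : ℝ) (s : ℂ) :
    ‖kr l u s‖ = Real.exp (u * s.re + l ^ 2 * (s.re ^ 2 - s.im ^ 2)) := by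
  rw [kr, norm_exp]
  congr 1
  simp [sq]

theorem norm_kr_le (hl : 0 < l) (hl1 : l ≤ 1) (u : ℝ) (s : ℂ) (h0 : 0 ≤ s.re) (h2 : s.re ≤ 2) :
    (1 + |s.im|) * ‖kr l u s‖ ≤
      Real.exp (u * s.re) * (Real.exp 5 / l) * Real.exp (-(l ^ 2 / 2) * s.im ^ 2) := by
  have h1 : 1 + |s.im| ≤ Real.exp (l * |s.im|) / l := by
    rw [le_div_iff₀ hl]
    have := Real.add_one_le_exp (l * |s.im|)
    nlinarith
  rw [norm_kr]
  refine (mul_le_mul_of_nonneg_right h1 (Real.exp_pos _).le).trans ?_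
  have e : Real.exp (u * s.re) * (Real.exp 5 / l) * Real.exp (-(l ^ 2 / 2) * s.im ^ 2) =
      Real.exp (u * s.re + 5 + -(l ^ 2 / 2) * s.im ^ 2) / l := by
    rw [Real.exp_add, Real.exp_add]; ring
  rw [e, div_mul_eq_mul_div, ← Real.exp_add]
  refine div_le_div_of_nonneg_right (Real.exp_le_exp.2 ?_) hl.le
  have k1 : l ^ 2 ≤ 1 := pow_le_one₀ hl.le hl1
  have k2 : s.re ^ 2 ≤ 4 := by nlinarith
  have k3 : l ^ 2 * s.re ^ 2 ≤ 1 * 4 := mul_le_mul k1 k2 (sq_nonneg _) zero_le_one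
  have k4 := sq_nonneg (l * |s.im| - 1)
  have k5 : (l * |s.im|) ^ 2 = l ^ 2 * s.im ^ 2 := by rw [mul_pow, sq_abs]
  nlinarith

theorem line_bd (hl : 0 < l) {f : ℝ → ℂ} (hf : Continuous f) {D : ℝ} (hD : 0 ≤ D)
    (h : ∀ t, ‖f t‖ ≤ D * Real.exp (-(l ^ 2 / 2) * t ^ 2)) :
    Integrable f ∧ ‖∫ t, f t‖ ≤ D * (3 / l) := by
  have h1 := (integrable_exp_neg_mul_sq (show 0 < l ^ 2 / 2 by positivity)).const_mul D
  refine ⟨h1.mono' hf.aestronglyMeasurable (ae_of_all _ h), ?_⟩
  refine (norm_integral_le_of_norm_le h1 (ae_of_all _ h)).trans ?_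
  rw [integral_const_mul, integral_gaussian]
  refine mul_le_mul_of_nonneg_left ?_ hD
  rw [Real.sqrt_le_iff]
  refine ⟨by positivity, ?_⟩
  rw [div_pow, div_div_eq_mul_div]
  exact div_le_div_of_nonneg_right (by linarith [Real.pi_lt_d2]) (by positivity)

theorem integral_kr (hl : 0 < l) (u c : ℝ) : ∫ t : ℝ, kr l u (c + t * I) = ((W l u : ℝ) : ℂ) := by
  have hl' : (l : ℂ) ≠ 0 := by exact_mod_cast hl.ne'
  have h := integral_cexp_quadratic (b := -(l : ℂ) ^ 2) (by
    rw [← ofReal_pow, neg_re, ofReal_re]; exact neg_neg_of_pos (by positivity))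
    (I * (2 * l ^ 2 * c + u)) (l ^ 2 * c ^ 2 + u * c)
  have e1 : ∀ t : ℝ, kr l u (c + t * I) =
      exp (-(l : ℂ) ^ 2 * (t : ℂ) ^ 2 + I * (2 * l ^ 2 * c + u) * t + (l ^ 2 * c ^ 2 + u * c)) := by
    intro t
    rw [kr]
    congr 1
    linear_combination (l : ℂ) ^ 2 * (t : ℂ) ^ 2 * I_mul_I
  simp only [e1, h]
  have e2 : (l : ℂ) ^ 2 * c ^ 2 + u * c - (I * (2 * l ^ 2 * c + u)) ^ 2 / (4 * -(l : ℂ) ^ 2) =
      ((-u ^ 2 / (4 * l ^ 2) : ℝ) : ℂ) := by
    rw [mul_pow, I_sq]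
    push_cast
    field_simp
    ring
  have e3 : ((Real.pi : ℂ) / - -(l : ℂ) ^ 2) ^ (1 / 2 : ℂ) = ((Real.sqrt Real.pi / l : ℝ) : ℂ) := by
    have : Real.sqrt Real.pi / l = (Real.pi / l ^ 2) ^ (1 / 2 : ℝ) := by
      rw [← Real.sqrt_eq_rpow, Real.sqrt_div Real.pi_pos.le, Real.sqrt_sq hl.le]
    rw [this, ofReal_cpow (by positivity)]
    simp
  rw [e2, e3, W, ofReal_mul, ofReal_exp]

theorem term_mul_kr (f : ℕ → ℂ) (u : ℝ) (s : ℂ) {n : ℕ} (hn : n ≠ 0) :
    LSeries.term f s n * kr l u s = f n * kr l (u - Real.log n) s := by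
  have h0 : (n : ℂ) ≠ 0 := by exact_mod_cast hn
  rw [LSeries.term_of_ne_zero hn, kr, kr, cpow_def_of_ne_zero h0, div_eq_mul_inv, ← exp_neg,
    mul_assoc, ← exp_add, ← natCast_log]
  congr 2
  push_cast
  ring

theorem hasSum_kr (hl : 0 < l) (b : ℕ → ℝ) (hb : b 0 = 0) (u c : ℝ)
    (hs : LSeriesSummable (fun n => (b n : ℂ)) c) :
    HasSum (fun n : ℕ => b n * W l (u - Real.log n))
      (∫ t : ℝ, LSeries (fun n => (b n : ℂ)) (c + t * I) * kr l u (c + t * I)).re := by
  have hn : ∀ (n : ℕ) (t : ℝ),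
      ‖LSeries.term (fun n => (b n : ℂ)) (c + t * I) n * kr l u (c + t * I)‖ =
      ‖LSeries.term (fun n => (b n : ℂ)) c n‖ * Real.exp (u * c + l ^ 2 * c ^ 2) *
        Real.exp (-l ^ 2 * t ^ 2) := by
    intro n t
    rw [norm_mul, norm_kr, LSeries.norm_term_eq, LSeries.norm_term_eq, mul_assoc, ← Real.exp_add]
    simp only [add_re, ofReal_re, mul_re, I_re, mul_zero, ofReal_im, I_im, mul_one, sub_self,
      add_zero, add_im, mul_im, zero_add]
    congr 2
    ring
  have hg := integrable_exp_neg_mul_sq (show (0 : ℝ) < l ^ 2 by positivity)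
  have hint : ∀ n : ℕ, Integrable fun t : ℝ =>
      LSeries.term (fun n => (b n : ℂ)) (c + t * I) n * kr l u (c + t * I) := by
    intro n
    refine (hg.const_mul _).mono' ?_ (ae_of_all _ fun t => (hn n t).le)
    rcases eq_or_ne n 0 with rfl | h0
    · simp only [LSeries.term_zero, zero_mul]
      exact aestronglyMeasurable_const
    · simp only [term_mul_kr _ _ _ h0]
      unfold kr
      exact Continuous.aestronglyMeasurable (by fun_prop)
  have h1 := hasSum_integral_of_summable_integral_norm hint (by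
    simp only [hn, integral_const_mul]
    exact (hs.norm.mul_right _).mul_right _)
  simp only [tsum_mul_right] at h1
  have h2 := hasSum_re h1
  have e : (fun n : ℕ => (∫ t : ℝ, LSeries.term (fun n => (b n : ℂ)) (c + t * I) n *
      kr l u (c + t * I)).re) = fun n : ℕ => b n * W l (u - Real.log n) := by
    funext n
    rcases eq_or_ne n 0 with rfl | h0
    · simp [hb]
    · simp only [term_mul_kr _ _ _ h0, integral_const_mul, integral_kr hl, ← ofReal_mul, ofReal_re]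
  rw [e] at h2
  exact h2

/-- the main term -/
noncomputable def mt (l u : ℝ) : ℝ :=
  (∫ t : ℝ, (((2 : ℝ) : ℂ) + t * I - 1)⁻¹ * kr l u ((2 : ℝ) + t * I)).re

theorem pole_int (hl : 0 < l) (hl1 : l ≤ 1) {u : ℝ} :
    Integrable fun t : ℝ => (((2 : ℝ) : ℂ) + t * I - 1)⁻¹ * kr l u ((2 : ℝ) + t * I) := by
  have k0 : ∀ t : ℝ, 1 ≤ ‖((2 : ℝ) : ℂ) + t * I - 1‖ := fun t => by
    refine le_trans (le_of_eq ?_) (re_le_norm _)
    simp
    norm_num
  refine (line_bd hl (f := fun t : ℝ => (((2 : ℝ) : ℂ) + t * I - 1)⁻¹ * kr l u ((2 : ℝ) + t * I))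
    (D := 1 * (Real.exp (u * 2) * (Real.exp 5 / l)))
    (Continuous.mul (Continuous.inv₀ (by fun_prop) fun t => ?_) ?_) (by positivity) fun t => ?_).1
  · exact norm_pos_iff.1 (one_pos.trans_le (k0 t))
  · unfold kr
    fun_prop
  · have k1 := norm_kr_le hl hl1 u ((2 : ℝ) + t * I) (by simp) (by simp)
    have k2 : ‖(((2 : ℝ) : ℂ) + t * I - 1)⁻¹‖ ≤ 1 := by
      rw [norm_inv]
      exact inv_le_one_of_one_le₀ (k0 t)
    have k3 := le_mul_of_one_le_left (norm_nonneg (kr l u ((2 : ℝ) + t * I)))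
      (show 1 ≤ 1 + |(((2 : ℝ) : ℂ) + t * I).im| by simp)
    rw [norm_mul, mul_assoc 1]
    refine mul_le_mul k2 (k3.trans (k1.trans (le_of_eq ?_))) (norm_nonneg _) (by positivity)
    simp

theorem mt_eq (hl : 0 < l) (u : ℝ) :
    mt l u = ∫ x in Ioi (0 : ℝ), Real.exp x * W l (u - x) := by
  have h1 : ∀ t : ℝ, (((2 : ℝ) : ℂ) + t * I - 1)⁻¹ * kr l u ((2 : ℝ) + t * I) =
      ∫ x in Ioi (0 : ℝ), cexp (-(((2 : ℝ) : ℂ) + t * I - 1) * x) * kr l u ((2 : ℝ) + t * I) := by
    intro t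
    rw [integral_mul_const, integral_exp_mul_complex_Ioi (by norm_num)]
    simp only [ofReal_zero, mul_zero, exp_zero, neg_div_neg_eq, one_div]
  have h2 : ∀ (x t : ℝ), cexp (-(((2 : ℝ) : ℂ) + t * I - 1) * x) * kr l u ((2 : ℝ) + t * I) =
      (Real.exp x : ℂ) * kr l (u - x) ((2 : ℝ) + t * I) := by
    intro x t
    rw [kr, kr, ofReal_exp, ← exp_add, ← exp_add]
    congr 1
    push_cast
    ring
  have hint : Integrable (Function.uncurry fun (t x : ℝ) =>
      cexp (-(((2 : ℝ) : ℂ) + t * I - 1) * x) * kr l u ((2 : ℝ) + t * I))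
      ((volume : Measure ℝ).prod (volume.restrict (Ioi (0 : ℝ)))) := by
    have g1 : Integrable fun t : ℝ => Real.exp (u * 2 + l ^ 2 * 4) * Real.exp (-l ^ 2 * t ^ 2) :=
      (integrable_exp_neg_mul_sq (show (0 : ℝ) < l ^ 2 by positivity)).const_mul _
    have g2 : Integrable (fun x : ℝ => Real.exp (-x)) (volume.restrict (Ioi (0 : ℝ))) :=
      integrableOn_exp_neg_Ioi 0
    refine (g1.mul_prod g2).mono' ?_ (ae_of_all _ fun z => le_of_eq ?_)
    · refine Continuous.aestronglyMeasurable ?_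
      unfold kr Function.uncurry
      fun_prop
    · obtain ⟨t, x⟩ := z
      simp only [Function.uncurry_apply_pair]
      rw [norm_mul, norm_kr, norm_exp, ← Real.exp_add, ← Real.exp_add, ← Real.exp_add]
      congr 1
      simp
      ring
  rw [mt]
  simp only [h1]
  rw [integral_integral_swap hint]
  simp only [h2, integral_const_mul, integral_kr hl, ← ofReal_mul]
  rw [integral_complex_ofReal, ofReal_re]

theorem mt_bd (hl : 0 < l) (u : ℝ) :
    |mt l u - 2 * Real.pi * Real.exp (u + l ^ 2)| ≤ 2 * Real.pi := by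
  have e : ∀ x : ℝ, Real.exp x * W l (u - x) = Real.exp (u + l ^ 2) * W l (x - (u + 2 * l ^ 2)) := by
    intro x
    unfold W
    rw [mul_left_comm, mul_left_comm (Real.exp (u + l ^ 2)), ← Real.exp_add, ← Real.exp_add]
    congr 2
    field_simp
    ring
  have hi : Integrable fun x : ℝ => Real.exp x * W l (u - x) := by
    simp only [e]
    exact ((W_int hl).comp_sub_right _).const_mul _
  have h1 : ∫ x : ℝ, Real.exp x * W l (u - x) = 2 * Real.pi * Real.exp (u + l ^ 2) := by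
    simp only [e]
    rw [integral_const_mul, integral_sub_right_eq_self (W l), int_W hl, mul_comm]
  have h2 := intervalIntegral.integral_Iic_add_Ioi (b := 0) hi.integrableOn hi.integrableOn
  have h3 : 0 ≤ ∫ x in Iic (0 : ℝ), Real.exp x * W l (u - x) :=
    integral_nonneg fun x => mul_nonneg (Real.exp_pos _).le (W_nonneg hl _)
  have hj : Integrable fun x : ℝ => W l (u - x) := (W_int hl).comp_sub_left u
  have h4 : ∫ x in Iic (0 : ℝ), Real.exp x * W l (u - x) ≤ 2 * Real.pi := by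
    rw [← int_W hl, ← integral_sub_left_eq_self (W l) volume u]
    refine le_trans (setIntegral_mono_on hi.integrableOn hj.integrableOn measurableSet_Iic
      fun x hx => ?_) (setIntegral_le_integral hj (ae_of_all _ fun x => W_nonneg hl _))
    exact mul_le_of_le_one_left (W_nonneg hl _) (Real.exp_le_one_iff.2 hx)
  rw [mt_eq hl, ← h1, ← h2, abs_le]
  constructor <;> linarith [Real.pi_pos]

/-- **The smoothed sum.** -/
theorem asym {θ : ℝ} (hθ0 : 0 ≤ θ) (hθ : θ < 1) : ∃ C : ℝ, 0 ≤ C ∧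
    ∀ (a : ℕ → ℝ) (S : ℝ) (g : ℂ → ℂ), 1 ≤ S → (∀ n, 0 ≤ a n) → (∀ n, a n ≤ S) →
      DifferentiableOn ℂ g {s | θ < s.re} → (∀ s : ℂ, θ < s.re → g s ≠ 0) →
      (∀ s : ℂ, 1 < s.re → g s = (s - 1) * exp (LSeries (fun n => (a n : ℂ)) s)) →
      (∀ s : ℂ, θ < s.re → s.re ≤ 2 → ‖g s‖ ≤ Real.exp (S * (1 + |s.im|))) →
      ∀ l u : ℝ, 0 < l → l ≤ 1 → 0 ≤ u →
        ∃ T : ℝ, HasSum (fun n : ℕ => Real.log n * a n * W l (u - Real.log n)) T ∧
        |T - 2 * Real.pi * Real.exp (u + l ^ 2)| ≤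
          C * S * Real.exp (u * ((1 + θ) / 2)) / l ^ 2 := by
  set B : ℝ := 16 * (3 + 2 * Z) / ((1 - θ) / 2) ^ 2 with hB
  have hZ := Z_nonneg
  have hB0 : 0 ≤ B := by positivity
  refine ⟨B * Real.exp 5 * 3 + 2 * Real.pi, by positivity,
    fun a S g hS1 ha0 haS hg h0 h1 h2 l u hl hl1 hu0 => ?_⟩
  set c : ℝ := 2 with hc
  have hc1 : 1 < c := by norm_num [hc]
  have hc2 : c ≤ 2 := le_rfl
  set σ : ℝ := (1 + θ) / 2 with hσ
  have hσ1 : σ < 1 := by linarith
  have hσθ : θ < σ := by linarith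
  have habs : LSeries.abscissaOfAbsConv (fun n => (a n : ℂ)) ≤ 1 :=
    LSeries.abscissaOfAbsConv_le_of_le_const ⟨S, fun n _ => by
      rw [norm_real, Real.norm_eq_abs, abs_of_nonneg (ha0 n)]; exact haS n⟩
  have habs' : ∀ s : ℂ, 1 < s.re → LSeries.abscissaOfAbsConv (fun n => (a n : ℂ)) < s.re :=
    fun s hs => habs.trans_lt (by exact_mod_cast hs)
  have hlm : LSeries.logMul (fun n => (a n : ℂ)) = fun n : ℕ => ((Real.log n * a n : ℝ) : ℂ) := by
    funext n
    rw [LSeries.logMul, ofReal_mul, natCast_log]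
  have hA : ∀ s : ℂ, 1 < s.re →
      LSeries (fun n : ℕ => ((Real.log n * a n : ℝ) : ℂ)) s = (s - 1)⁻¹ - logDeriv g s := by
    intro s hs
    have hs1 : s - 1 ≠ 0 := fun h => by
      have := congrArg re h
      simp at this
      linarith
    have k1 := ((hasDerivAt_id s).sub_const 1).mul (LSeries_hasDerivAt (habs' s hs)).cexp
    have k2 : g =ᶠ[𝓝 s] fun s => (s - 1) * exp (LSeries (fun n => (a n : ℂ)) s) := by
      filter_upwards [(isOpen_lt continuous_const continuous_re).mem_nhds hs] with z hz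
      exact h1 z hz
    have k3 := (k1.congr_of_eventuallyEq k2).deriv
    rw [logDeriv_apply, k3, h1 s hs, hlm]
    have := exp_ne_zero (LSeries (fun n => (a n : ℂ)) s)
    simp only [id]
    field_simp
    ring
  have hopen : IsOpen {s : ℂ | θ < s.re} := isOpen_lt continuous_const continuous_re
  have hld : ∀ s : ℂ, θ < s.re → DifferentiableAt ℂ (fun s => logDeriv g s * kr l u s) s := by
    intro s hs
    have k1 : DifferentiableOn ℂ (logDeriv g) {s : ℂ | θ < s.re} := (hg.deriv hopen).div hg h0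
    refine (k1.differentiableAt (hopen.mem_nhds hs)).mul ?_
    unfold kr
    fun_prop
  have hbd : ∀ s : ℂ, σ ≤ s.re → s.re ≤ 2 → ‖logDeriv g s * kr l u s‖ ≤
      B * S * (Real.exp (u * s.re) * (Real.exp 5 / l)) * Real.exp (-(l ^ 2 / 2) * s.im ^ 2) := by
    intro s k1 k2
    have k3 := strip_bound hθ0 hθ hS1 (fun s hs => norm_LSeries_le ha0 haS hs) hg h0 h1 h2 k1 k2
    have k4 := norm_kr_le hl hl1 u s (by linarith) k2
    rw [norm_mul]
    calc ‖logDeriv g s‖ * ‖kr l u s‖ ≤ B * S * (1 + |s.im|) * ‖kr l u s‖ :=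
          mul_le_mul_of_nonneg_right k3 (norm_nonneg _)
      _ = B * S * ((1 + |s.im|) * ‖kr l u s‖) := by ring
      _ ≤ _ := by rw [mul_assoc (B * S)]; gcongr
  have hline : ∀ x : ℝ, σ ≤ x → x ≤ 2 →
      (Integrable fun t : ℝ => logDeriv g (x + t * I) * kr l u (x + t * I)) ∧
      ‖∫ t : ℝ, logDeriv g (x + t * I) * kr l u (x + t * I)‖ ≤
        B * S * (Real.exp (u * x) * (Real.exp 5 / l)) * (3 / l) := by
    intro x k1 k2
    refine line_bd hl (continuous_iff_continuousAt.2 fun t => ?_) (by positivity) fun t => ?_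
    · exact ContinuousAt.comp (g := fun s => logDeriv g s * kr l u s)
        (f := fun t : ℝ => (x : ℂ) + t * I)
        (hld _ (by simpa using hσθ.trans_le k1)).continuousAt (by fun_prop)
    · simpa using hbd (x + t * I) (by simpa using k1) (by simpa using k2)
  have hshift := P026Z.Vor.shift_of_decay (F := fun s => logDeriv g s * kr l u s) (σ0 := σ)
    (σ1 := c) (by linarith) (fun s k1 _ => hld s (hσθ.trans_le k1))
    (g := fun T => B * S * (Real.exp (u * 2) * (Real.exp 5 / l)) * Real.exp (-(l ^ 2 / 2) * T ^ 2))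
    (by
      have k1 : Tendsto (fun T : ℝ => -(l ^ 2 / 2) * T ^ 2) atTop atBot :=
        (tendsto_pow_atTop two_ne_zero).const_mul_atTop_of_neg (neg_neg_of_pos (by positivity))
      simpa using (Real.tendsto_exp_atBot.comp k1).const_mul
        (B * S * (Real.exp (u * 2) * (Real.exp 5 / l))))
    (fun s k1 k2 _ => (hbd s k1 (k2.trans hc2)).trans (by
      rw [sq_abs]
      have : u * s.re ≤ u * 2 := by gcongr
      gcongr))
    (hline σ le_rfl (by linarith)).1 (hline c (by linarith) hc2).1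
  have hsum := hasSum_kr hl (fun n : ℕ => Real.log n * a n) (by simp) u c (by
    rw [← hlm]
    exact LSeriesSummable_logMul_of_lt_re (habs' c (by simpa using hc1)))
  have e1 : ∫ t : ℝ, LSeries (fun n : ℕ => ((Real.log n * a n : ℝ) : ℂ)) (c + t * I) *
      kr l u (c + t * I) = (∫ t : ℝ, ((c : ℂ) + t * I - 1)⁻¹ * kr l u (c + t * I)) -
        ∫ t : ℝ, logDeriv g (σ + t * I) * kr l u (σ + t * I) := by
    rw [hshift, ← integral_sub (pole_int hl hl1) (hline c (by linarith) hc2).1]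
    refine integral_congr_ae (ae_of_all _ fun t => ?_)
    beta_reduce
    rw [hA _ (by simpa using hc1), sub_mul]
  refine ⟨_, hsum, ?_⟩
  rw [e1, sub_re]
  have k1 := mt_bd hl u
  have k2 := (abs_re_le_norm _).trans (hline σ le_rfl (by linarith)).2
  rw [mt] at k1
  have k3 : (1 : ℝ) ≤ S * Real.exp (u * σ) / l ^ 2 := by
    rw [le_div_iff₀ (by positivity), one_mul]
    exact (pow_le_one₀ hl.le hl1).trans (one_le_mul_of_one_le_of_one_le hS1
      (Real.one_le_exp (mul_nonneg hu0 (by linarith))))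
  have k4 : B * S * (Real.exp (u * σ) * (Real.exp 5 / l)) * (3 / l) =
      B * Real.exp 5 * 3 * (S * Real.exp (u * σ) / l ^ 2) := by field_simp
  have k5 : (B * Real.exp 5 * 3 + 2 * Real.pi) * S * Real.exp (u * σ) / l ^ 2 =
      B * Real.exp 5 * 3 * (S * Real.exp (u * σ) / l ^ 2) +
        2 * Real.pi * (S * Real.exp (u * σ) / l ^ 2) := by ring
  have k6 := mul_le_mul_of_nonneg_left k3 (show 0 ≤ 2 * Real.pi by positivity)
  rw [k5]
  rw [k4] at k2
  rw [abs_le] at k1 k2 ⊢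
  constructor <;> linarith [k1.1, k1.2, k2.1, k2.2]

end Vale.Agent.P004S.Ch
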