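import Vale.Agent.P004S.Bas2

/-!
P004, block SMITH: fixed cosets, kernels of quadratic characters, a variance bound.
-/

set_option linter.all false

noncomputable section

namespace Vale.Agent.P004S.Ch

open NumberField Finset
open Vale.Agent.P022 (Qb GQ IsConj)
open Vale.Agent.P027M.S (Inert)
open Vale.Agent.P022E.GW (Ov Fb Gn Ch)
open scoped Classical

theorem ind {G : Type} [Group G] {K H : Subgroup G} (hKH : K ≤ H)
    (hn : ∀ h ∈ H, ∀ k, h⁻¹ * k * h ∈ K ↔ k ∈ K) (σ : G) :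
    Nat.card {c : G ⧸ K // σ • c = c} =
      Nat.card {c : G ⧸ H // c.out⁻¹ * σ * c.out ∈ K} * K.relIndex H := by
  let e := Subgroup.quotientEquivProdOfLE hKH
  have key : ∀ d : G ⧸ K, σ • d = d ↔ (e d).1.out⁻¹ * σ * (e d).1.out ∈ K := by
    intro d
    induction d using QuotientGroup.induction_on with
    | H g =>
      obtain ⟨h, hh⟩ := QuotientGroup.mk_out_eq_mul H g
      have e1 : (e (g : G ⧸ K)).1 = (g : G ⧸ H) := rfl
      rw [e1, hh, MulAction.Quotient.smul_mk, QuotientGroup.eq, ← K.inv_mem_iff,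
        ← hn h h.2]
      simp only [smul_eq_mul, mul_inv_rev, inv_inv, mul_assoc]
  rw [Nat.card_congr (e.subtypeEquiv (q := fun x => x.1.out⁻¹ * σ * x.1.out ∈ K) key),
    Nat.card_congr
    (Equiv.prodSubtypeFstEquivSubtypeProd (p := fun c : G ⧸ H => c.out⁻¹ * σ * c.out ∈ K)),
    Nat.card_prod]
  rfl

theorem fix_iff {G : Type} [Group G] (H : Subgroup G) (σ : G) (c : G ⧸ H) :
    σ • c = c ↔ c.out⁻¹ * σ * c.out ∈ H := by
  conv_lhs => rw [← c.out_eq']
  rw [MulAction.Quotient.smul_mk, QuotientGroup.eq, ← H.inv_mem_iff]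
  simp only [smul_eq_mul, mul_inv_rev, inv_inv, mul_assoc]

variable {H : Subgroup GQ} {η χ : GQ → ZMod 2}

theorem ch_mul (h : Ch H η) {x y : GQ} (hx : x ∈ H) (hy : y ∈ H) : η (x * y) = η x + η y :=
  h.2 ⟨x, hx⟩ ⟨y, hy⟩

theorem ch_one (h : Ch H η) : η 1 = 0 := by
  have := ch_mul h H.one_mem H.one_mem
  rw [mul_one] at this
  exact left_eq_add.1 this

theorem ch_inv (h : Ch H η) {x : GQ} (hx : x ∈ H) : η x⁻¹ = η x := by
  have := ch_mul h (H.inv_mem hx) hx
  rw [inv_mul_cancel, ch_one h] at this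
  revert this; generalize η x⁻¹ = a; generalize η x = b; revert a b; decide

theorem ch_conj (h : Ch H η) {x y : GQ} (hx : x ∈ H) (hy : y ∈ H) : η (x⁻¹ * y * x) = η y := by
  rw [ch_mul h (H.mul_mem (H.inv_mem hx) hy) hx, ch_mul h (H.inv_mem hx) hy, ch_inv h hx]
  generalize η x = a; generalize η y = b; revert a b; decide

theorem ch_le (h : Ch H η) {K : Subgroup GQ} (hK : K ≤ H) : Ch K η :=
  ⟨h.1.comp_continuous (continuous_inclusion hK), fun x y => ch_mul h (hK x.2) (hK y.2)⟩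

theorem ch_add (h : Ch H η) (h' : Ch H χ) : Ch H fun g => η g + χ g :=
  Submodule.add_mem _ h h'

theorem ch_zero (H : Subgroup GQ) : Ch H fun _ => (0 : ZMod 2) := Submodule.zero_mem _

/-- the kernel -/
def ker (h : Ch H η) : Subgroup GQ where
  carrier := {g | g ∈ H ∧ η g = 0}
  mul_mem' {a b} ha hb := ⟨H.mul_mem ha.1 hb.1, by rw [ch_mul h ha.1 hb.1, ha.2, hb.2, add_zero]⟩
  one_mem' := ⟨H.one_mem, ch_one h⟩
  inv_mem' {a} ha := ⟨H.inv_mem ha.1, (ch_inv h ha.1).trans ha.2⟩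

theorem mem_ker (h : Ch H η) {g : GQ} : g ∈ ker h ↔ g ∈ H ∧ η g = 0 := Iff.rfl

theorem ker_le (h : Ch H η) : ker h ≤ H := fun _ hg => hg.1

theorem ker_open (h : Ch H η) (hH : IsOpen (H : Set GQ)) : IsOpen (ker h : Set GQ) := by
  have h1 := hH.isOpenMap_subtype_val _ (h.1.isOpen_fiber 0)
  convert h1 using 1
  ext g
  exact ⟨fun k => ⟨⟨g, k.1⟩, k.2, rfl⟩, fun ⟨x, k, e⟩ => e ▸ ⟨x.2, k⟩⟩

theorem ker_rel (h : Ch H η) : (ker h).relIndex H = if ∀ g ∈ H, η g = 0 then 1 else 2 := by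
  split_ifs with k
  · exact Subgroup.relIndex_eq_one.2 fun g hg => ⟨hg, k g hg⟩
  · push Not at k
    obtain ⟨a, ha, k⟩ := k
    refine Subgroup.index_eq_two_iff.2 ⟨⟨a, ha⟩, fun b => ?_⟩
    simp only [Subgroup.mem_subgroupOf, mem_ker, Subgroup.coe_mul, H.mul_mem b.2 ha, b.2, true_and,
      ch_mul h b.2 ha]
    revert k; generalize η a = x; generalize η b = y; revert x y; decide

theorem mem_conj {x k : GQ} (hx : x ∈ H) : x⁻¹ * k * x ∈ H ↔ k ∈ H := by
  rw [H.mul_mem_cancel_right hx, H.mul_mem_cancel_left (H.inv_mem hx)]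

theorem sgn_add (a b : ZMod 2) : sgn (a + b) = sgn a * sgn b := by
  rcases z2 a with rfl | rfl <;> rcases z2 b with rfl | rfl <;> simp [sgn]
  exact fun k => absurd (by decide) k

theorem sgn_sq (a : ZMod 2) : sgn a * sgn a = 1 := by
  unfold sgn; split_ifs <;> norm_num

theorem abs_sgn (a : ZMod 2) : |sgn a| = 1 := by
  unfold sgn; split_ifs <;> norm_num

theorem chs_add (pl : Pl) (H : Subgroup GQ) (hH : IsOpen (H : Set GQ)) (η : GQ → ZMod 2)
    (h : Ch ⊤ χ) (x : ℕ) :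
    chs pl H (fun g => η g + χ g) x = chs pl H η x * sgn (χ (pl.σ x)) := by
  have := H.quotient_finite_of_isOpen hH
  have := Fintype.ofFinite (GQ ⧸ H)
  simp only [chs, finsum_eq_sum_of_fintype, sum_mul]
  refine sum_congr rfl fun c _ => ?_
  split_ifs
  · rw [sgn_add, ch_conj h trivial trivial]
  · rw [zero_mul]

theorem chs_le (pl : Pl) (H : Subgroup GQ) (hH : IsOpen (H : Set GQ)) (η : GQ → ZMod 2) (x : ℕ) :
    |chs pl H η x| ≤ H.index := by
  have := H.quotient_finite_of_isOpen hH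
  have := Fintype.ofFinite (GQ ⧸ H)
  rw [chs, finsum_eq_sum_of_fintype, Subgroup.index, Nat.card_eq_fintype_card, ← card_univ,
    card_eq_sum_ones, Nat.cast_sum]
  refine (abs_sum_le_sum_abs _ _).trans (sum_le_sum fun c _ => ?_)
  split_ifs <;> simp [abs_sgn]

theorem chs_top (pl : Pl) (x : ℕ) : chs pl ⊤ (fun _ => 0) x = 1 := by
  have := QuotientGroup.subsingleton_quotient_top (G := GQ)
  have : Unique (GQ ⧸ (⊤ : Subgroup GQ)) := uniqueOfSubsingleton ((1 : GQ) : GQ ⧸ ⊤)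
  rw [chs, finsum_unique, if_pos (Subsingleton.elim _ _), sgn, if_pos rfl]

/-- the number of fixed cosets -/
def fx (K : Subgroup GQ) (σ : GQ) : ℝ := Nat.card {c : GQ ⧸ K // σ • c = c}

theorem chs_pair (pl : Pl) (hH : IsOpen (H : Set GQ)) (hη : Ch H η) (hχ : Ch H χ) (x : ℕ) :
    chs pl H η x + chs pl H (fun g => η g + χ g) x =
      4 / ((ker (ch_le hη (ker_le hχ))).relIndex H) * fx (ker (ch_le hη (ker_le hχ))) (pl.σ x) -
        2 / (ker hχ).relIndex H * fx (ker hχ) (pl.σ x) := by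
  have := H.quotient_finite_of_isOpen hH
  have := Fintype.ofFinite (GQ ⧸ H)
  have l1 := ker_le hχ
  have l2 := (ker_le (ch_le hη (ker_le hχ))).trans l1
  have r1 : ((ker hχ).relIndex H : ℝ) ≠ 0 := by
    rw [ker_rel]; split_ifs <;> norm_num
  have r2 : ((ker (ch_le hη (ker_le hχ))).relIndex H : ℝ) ≠ 0 := by
    rw [← Subgroup.relIndex_mul_relIndex _ _ _ (ker_le _) l1, ker_rel, ker_rel]
    split_ifs <;> norm_num
  have n1 : ∀ h ∈ H, ∀ k, h⁻¹ * k * h ∈ ker hχ ↔ k ∈ ker hχ := fun h hh k => by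
    rw [mem_ker, mem_ker, mem_conj hh]
    exact and_congr_right fun hk => by rw [ch_conj hχ hh hk]
  have n2 : ∀ h ∈ H, ∀ k, h⁻¹ * k * h ∈ ker (ch_le hη (ker_le hχ)) ↔
      k ∈ ker (ch_le hη (ker_le hχ)) := fun h hh k => by
    rw [mem_ker (ch_le hη (ker_le hχ)), mem_ker (ch_le hη (ker_le hχ)), n1 h hh]
    exact and_congr_right fun hk => by rw [ch_conj hη hh (l1 hk)]
  rw [fx, fx, ind l1 n1, ind l2 n2, Nat.cast_mul, Nat.cast_mul, mul_comm (Nat.card _ : ℝ),
    mul_comm (Nat.card _ : ℝ), ← mul_assoc, ← mul_assoc, div_mul_cancel₀ _ r1,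
    div_mul_cancel₀ _ r2]
  simp only [chs, finsum_eq_sum_of_fintype, Nat.card_eq_fintype_card, Fintype.card_subtype,
    card_filter, Nat.cast_sum, mul_sum, ← sum_add_distrib, ← sum_sub_distrib, fix_iff, mem_ker]
  refine sum_congr rfl fun c _ => ?_
  generalize c.out⁻¹ * pl.σ x * c.out = g
  by_cases hg : g ∈ H
  · rw [sgn_add]
    rcases z2 (η g) with a | a <;> rcases z2 (χ g) with b | b <;> simp [hg, a, b, sgn] <;>
      norm_num
  · simp [hg]

theorem main_pair (hη : Ch H η) (hχ : Ch H χ) :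
    (4 : ℝ) / ((ker (ch_le hη (ker_le hχ))).relIndex H) - 2 / (ker hχ).relIndex H =
      (if ∀ g ∈ H, η g = 0 then 1 else 0) + if ∀ g ∈ H, η g + χ g = 0 then 1 else 0 := by
  rw [← Subgroup.relIndex_mul_relIndex _ _ _ (ker_le _) (ker_le hχ), ker_rel, ker_rel]
  by_cases a : ∀ g ∈ H, χ g = 0
  · have e1 : (∀ g ∈ ker hχ, η g = 0) ↔ ∀ g ∈ H, η g = 0 :=
      ⟨fun k g hg => k g ⟨hg, a g hg⟩, fun k g hg => k g hg.1⟩
    have e2 : (∀ g ∈ H, η g + χ g = 0) ↔ ∀ g ∈ H, η g = 0 :=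
      forall₂_congr fun g hg => by rw [a g hg, add_zero]
    rw [if_pos a]
    simp only [e1, e2]
    split_ifs <;> norm_num
  · rw [if_neg a]
    push Not at a
    obtain ⟨a, ha, k⟩ := a
    have k1 := (z2 _).resolve_left k
    by_cases b : ∀ g ∈ ker hχ, η g = 0
    · have b' : ∀ g ∈ H, η g = χ g * η a := fun g hg => by
        rcases z2 (χ g) with u | u
        · rw [u, zero_mul]; exact b g ⟨hg, u⟩
        · have := b (g * a) ⟨H.mul_mem hg ha, by rw [ch_mul hχ hg ha, u, k1]; rfl⟩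
          rw [ch_mul hη hg ha] at this
          rw [u, one_mul]
          revert this; generalize η g = x; generalize η a = y; revert x y; decide
      rw [if_pos b]
      rcases z2 (η a) with u | u
      · rw [if_pos fun g hg => by rw [b' g hg, u, mul_zero],
          if_neg fun c => by have := c a ha; rw [u, k1] at this; exact absurd this (by decide)]
        norm_num
      · rw [if_neg fun c => by have := c a ha; rw [u] at this; exact absurd this (by decide),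
          if_pos fun g hg => by rw [b' g hg, u, mul_one, CharTwo.add_self_eq_zero]]
        norm_num
    · rw [if_neg b, if_neg fun c => b fun g hg => c g hg.1,
        if_neg fun c => b fun g hg => by have := c g hg.1; rwa [hg.2, add_zero] at this]
      norm_num

/-- the variance bound -/
theorem var {P M : Finset ℕ} (f : ℕ → ℝ) (s : ℕ → ℕ → ℝ) {A n E₀ E₁ lam : ℝ} (hl : 0 < lam)
    (hn : 0 ≤ n) (hE : 0 ≤ E₀) (hM : (P.card : ℝ) ≤ 2 * M.card) (hM0 : M.Nonempty)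
    (hf : ∀ p, |f p| ≤ n) (hs : ∀ m p, s m p * s m p = 1)
    (h1 : ∀ m ∈ M, |A + ∑ p ∈ P, f p * s m p| ≤ E₁)
    (h2 : ∀ m ∈ M, ∀ m' ∈ M, m ≠ m' → ∑ p ∈ P, s m p * s m' p ≤ E₀) :
    |A| ≤ E₁ + n * (lam * P.card + (2 + E₀) / lam) := by
  obtain ⟨k, hk⟩ : ∃ k : ℝ, k = M.card := ⟨_, rfl⟩
  have k0 : 0 < k := by rw [hk]; exact_mod_cast hM0.card_pos
  rw [← hk] at hM
  have a1 : |k * A + ∑ p ∈ P, f p * ∑ m ∈ M, s m p| ≤ k * E₁ := by
    have e : k * A + ∑ p ∈ P, f p * ∑ m ∈ M, s m p = ∑ m ∈ M, (A + ∑ p ∈ P, f p * s m p) := by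
      rw [sum_add_distrib, sum_const, nsmul_eq_mul, hk, sum_comm]
      simp only [mul_sum]
    rw [e, hk, ← nsmul_eq_mul]
    exact (abs_sum_le_sum_abs _ _).trans (sum_le_card_nsmul _ _ _ h1)
  have a2 : ∑ p ∈ P, (∑ m ∈ M, s m p) ^ 2 ≤ k * (P.card + k * E₀) := by
    simp only [sq, sum_mul_sum]
    rw [sum_comm, hk, ← nsmul_eq_mul]
    refine sum_le_card_nsmul _ _ _ fun m hm => ?_
    rw [sum_comm, ← add_sum_erase _ _ hm]
    simp only [hs, sum_const, nsmul_eq_mul, mul_one]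
    have b1 := sum_le_card_nsmul (M.erase m) (fun m' => ∑ p ∈ P, s m p * s m' p) E₀
      fun m' hm' => h2 m hm m' (mem_of_mem_erase hm') (ne_of_mem_erase hm').symm
    have b2 : ((M.erase m).card : ℝ) ≤ M.card := by exact_mod_cast card_erase_le
    rw [nsmul_eq_mul] at b1
    linarith [mul_le_mul_of_nonneg_right b2 hE]
  have lk : 0 < lam * k := mul_pos hl k0
  have a3 : |∑ p ∈ P, f p * ∑ m ∈ M, s m p| ≤
      n * (lam * k * P.card + (∑ p ∈ P, (∑ m ∈ M, s m p) ^ 2) / (lam * k)) := by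
    have e : lam * k * P.card + (∑ p ∈ P, (∑ m ∈ M, s m p) ^ 2) / (lam * k) =
        ∑ p ∈ P, (lam * k + (∑ m ∈ M, s m p) ^ 2 / (lam * k)) := by
      rw [sum_add_distrib, sum_const, nsmul_eq_mul, sum_div, mul_comm]
    rw [e, mul_sum]
    refine (abs_sum_le_sum_abs _ _).trans (sum_le_sum fun p _ => ?_)
    rw [abs_mul]
    refine mul_le_mul (hf p) ?_ (abs_nonneg _) hn
    generalize ∑ m ∈ M, s m p = D
    rw [← sq_abs D, add_div' _ _ _ lk.ne', le_div_iff₀ lk]
    nlinarith [sq_nonneg (|D| - lam * k), mul_nonneg (abs_nonneg D) lk.le]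
  have a4 : (∑ p ∈ P, (∑ m ∈ M, s m p) ^ 2) / (lam * k) ≤ k * ((2 + E₀) / lam) := by
    rw [div_le_iff₀ lk]
    refine a2.trans ?_
    have : k * ((2 + E₀) / lam) * (lam * k) = k * (2 * k + k * E₀) := by field_simp
    rw [this]
    exact mul_le_mul_of_nonneg_left (by linarith) k0.le
  have a5 := mul_le_mul_of_nonneg_left a4 hn
  have a6 := abs_sub (k * A + ∑ p ∈ P, f p * ∑ m ∈ M, s m p) (∑ p ∈ P, f p * ∑ m ∈ M, s m p)
  rw [add_sub_cancel_right, abs_mul, abs_of_pos k0] at a6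
  refine le_of_mul_le_mul_left ?_ k0
  linarith

end Vale.Agent.P004S.Ch
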