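import Vale.Agent.P004S.Ch.An

/-!
P004, block CHB: from smoothed sums to sharp sums.
-/

set_option linter.all false

namespace Vale.Agent.P004S.Ch

open Set MeasureTheory

theorem exp_le_lin {z : ℝ} (h0 : 0 ≤ z) (h1 : z ≤ 1) : Real.exp z ≤ 1 + 2 * z := by
  have := Real.abs_exp_sub_one_le (x := z) (by rwa [abs_of_nonneg h0])
  rw [abs_of_nonneg h0] at this
  linarith [le_abs_self (Real.exp z - 1)]

theorem W_tail {η v : ℝ} (h0 : 0 < η) (h1 : η ≤ 1 / 2) (hv : η ≤ |v|) :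
    W (η ^ 2) v ≤ 128 * η ^ 2 * W 1 v := by
  have k1 : η ^ 2 ≤ v ^ 2 := by rw [← sq_abs v]; exact pow_le_pow_left₀ h0.le hv 2
  have k2 : η ^ 2 ≤ 1 / 4 := by nlinarith
  have k3 : (η ^ 2) ^ 2 ≤ 1 / 16 := by nlinarith [sq_nonneg η]
  have k4 : -v ^ 2 / (4 * (η ^ 2) ^ 2) ≤ -(1 / (8 * η ^ 2)) + -v ^ 2 / (4 * 1 ^ 2) := by
    have a1 : 1 / (8 * η ^ 2) ≤ v ^ 2 / (8 * (η ^ 2) ^ 2) := by
      rw [div_le_div_iff₀ (by positivity) (by positivity)]
      nlinarith [sq_nonneg η, mul_le_mul_of_nonneg_right k1 (sq_nonneg η)]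
    have a2 : v ^ 2 / (4 * 1 ^ 2) ≤ v ^ 2 / (8 * (η ^ 2) ^ 2) :=
      div_le_div_of_nonneg_left (sq_nonneg v) (by positivity) (by linarith)
    have a3 : -v ^ 2 / (4 * (η ^ 2) ^ 2) =
        -(v ^ 2 / (8 * (η ^ 2) ^ 2)) - v ^ 2 / (8 * (η ^ 2) ^ 2) := by field_simp; ring
    rw [a3, neg_div]
    linarith
  have k5 : Real.exp (-(1 / (8 * η ^ 2))) ≤ 128 * η ^ 4 := by
    have := Real.pow_div_factorial_le_exp (1 / (8 * η ^ 2)) (by positivity) 2
    rw [Real.exp_neg]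
    refine (inv_anti₀ (by positivity) this).trans (le_of_eq ?_)
    simp only [Nat.factorial]
    field_simp
    norm_num
  unfold W
  calc Real.sqrt Real.pi / η ^ 2 * Real.exp (-v ^ 2 / (4 * (η ^ 2) ^ 2))
      ≤ Real.sqrt Real.pi / η ^ 2 * (128 * η ^ 4 * Real.exp (-v ^ 2 / (4 * 1 ^ 2))) := by
        refine mul_le_mul_of_nonneg_left ((Real.exp_le_exp.2 k4).trans ?_) (by positivity)
        rw [Real.exp_add]
        exact mul_le_mul_of_nonneg_right k5 (Real.exp_pos _).le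
    _ = _ := by field_simp

theorem int_le {l : ℝ} (hl : 0 < l) {p q : ℝ} (h : p ≤ q) (z : ℝ) :
    ∫ u in p..q, W l (u - z) ≤ 2 * Real.pi := by
  rw [intervalIntegral.integral_of_le h, ← int_W hl, ← integral_sub_right_eq_self (W l) z]
  exact setIntegral_le_integral ((W_int hl).comp_sub_right z) (ae_of_all _ fun x => W_nonneg hl _)

theorem le_int {η p q z : ℝ} (h0 : 0 < η) (h1 : η ≤ 1 / 2) (hp : p ≤ z) (hq : z ≤ q) :
    2 * Real.pi ≤ (∫ u in (p - η)..(q + η), W (η ^ 2) (u - z)) + 128 * η ^ 2 * (2 * Real.pi) := by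
  have hl : 0 < η ^ 2 := by positivity
  have i1 := (W_int hl).comp_sub_right z
  have i2 := ((W_int one_pos).comp_sub_right z).const_mul (128 * η ^ 2)
  have e1 : ∫ u, 128 * η ^ 2 * W 1 (u - z) = 128 * η ^ 2 * (2 * Real.pi) := by
    rw [integral_const_mul, integral_sub_right_eq_self (W 1) z, int_W one_pos]
  rw [intervalIntegral.integral_of_le (by linarith), ← integral_indicator measurableSet_Ioc, ← e1,
    ← integral_add (i1.indicator measurableSet_Ioc) i2]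
  conv_lhs => rw [← int_W hl, ← integral_sub_right_eq_self (W (η ^ 2)) z]
  refine integral_mono i1 ((i1.indicator measurableSet_Ioc).add i2) fun u => ?_
  have k0 : 0 ≤ 128 * η ^ 2 * W 1 (u - z) := mul_nonneg (by positivity) (W_nonneg one_pos _)
  by_cases hu : u ∈ Ioc (p - η) (q + η)
  · simp only [indicator_of_mem hu]
    linarith
  · simp only [indicator_of_notMem hu, zero_add]
    refine W_tail h0 h1 ?_
    rw [mem_Ioc, not_and_or, not_lt, not_le] at hu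
    rcases hu with hu | hu
    · exact le_abs.2 (Or.inr (by linarith))
    · exact le_abs.2 (Or.inl (by linarith))

theorem int_sum (l p q : ℝ) (F : Finset ℕ) (b : ℕ → ℝ) :
    ∫ u in p..q, ∑ n ∈ F, b n * W l (u - Real.log n) =
      ∑ n ∈ F, b n * ∫ u in p..q, W l (u - Real.log n) := by
  rw [intervalIntegral.integral_finset_sum (f := fun n u => b n * W l (u - Real.log n)) fun n _ =>
    (continuous_const.mul ((W_cont l).comp (continuous_id.sub continuous_const))).intervalIntegrable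
      p q]
  simp only [intervalIntegral.integral_const_mul]

theorem int_exp (p q D : ℝ) : ∫ u in p..q, (2 * Real.pi * Real.exp u + D) =
    2 * Real.pi * (Real.exp q - Real.exp p) + (q - p) * D := by
  rw [intervalIntegral.integral_add ((by fun_prop : Continuous _).intervalIntegrable p q)
    (continuous_const.intervalIntegrable p q), intervalIntegral.integral_const_mul,
    integral_exp, intervalIntegral.integral_const, smul_eq_mul]

theorem cont_sum (l : ℝ) (F : Finset ℕ) (b : ℕ → ℝ) :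
    Continuous fun u => ∑ n ∈ F, b n * W l (u - Real.log n) :=
  continuous_finset_sum _ fun n _ =>
    continuous_const.mul ((W_cont l).comp (continuous_id.sub continuous_const))

theorem low {b : ℕ → ℝ} {E c η Z A B : ℝ} {y x : ℕ} (b0 : ∀ n, 0 ≤ b n) (h0 : 0 < η)
    (h1 : η ≤ 1 / 2) (hc1 : 1 ≤ c) (hE : 1 ≤ E) (hY0 : (0 : ℝ) < y) (hYX : (y : ℝ) ≤ x)
    (hX : (x : ℝ) ≤ 2 * y) (hA : A = Real.log y) (hB : B = Real.log x) (hA1 : 1 / 2 ≤ A)
    (hBA : B ≤ A + 1) (hZ : Z = y * η)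
    (hT : ∀ u, A - η ≤ u → u ≤ B + η →
      ∃ T : ℝ, HasSum (fun n : ℕ => b n * W (η ^ 2) (u - Real.log n)) T ∧
        |T - 2 * Real.pi * Real.exp u| ≤ 17 * (c * (E * Z)))
    (hT1 : ∀ u, 0 ≤ u → u ≤ B + η →
      ∃ T : ℝ, HasSum (fun n : ℕ => b n * W 1 (u - Real.log n)) T ∧ T ≤ 9 * (c ^ 2 * (E * y)))
    {Θ : ℝ} (hΘ : Θ = ∑ n ∈ Finset.Ioc y x, b n) :
    (x : ℝ) - y - 4 * Z - 1200 * (c ^ 2 * (E * Z)) ≤ Θ := by
  have hX0 : (0 : ℝ) < x := by linarith
  have hZ0 : 0 < Z := by rw [hZ]; positivity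
  have hl : 0 < η ^ 2 := by positivity
  have eA : Real.exp A = y := hA ▸ Real.exp_log hY0
  have eB : Real.exp B = x := hB ▸ Real.exp_log hX0
  have hAB : A ≤ B := by rw [hA, hB]; exact Real.log_le_log hY0 hYX
  have pi3 := Real.pi_gt_three
  have hη1 := exp_le_lin h0.le (by linarith)
  have hη2 := Real.add_one_le_exp (-η)
  have hXZ : (x : ℝ) * η ≤ 2 * Z := by rw [hZ]; nlinarith
  have a11 : 0 ≤ c * (E * Z) := by positivity
  have hc3 : c * (E * Z) ≤ c ^ 2 * (E * Z) :=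
    mul_le_mul_of_nonneg_right (by nlinarith) (by positivity)
  have hΘ0 : 0 ≤ Θ := hΘ ▸ Finset.sum_nonneg fun n _ => b0 n
  rcases le_or_gt (A + η) (B - η) with h2 | h2
  · have k1 : ∀ u ∈ Icc (A + η) (B - η),
        2 * Real.pi * Real.exp u + -(1200 * (c ^ 2 * (E * Z))) ≤
        ∑ n ∈ Finset.Ioc y x, b n * W (η ^ 2) (u - Real.log n) := by
      intro u hu
      obtain ⟨T, t1, t2⟩ := hT u (by linarith [hu.1]) (by linarith [hu.2])
      obtain ⟨T', s1, a3⟩ := hT1 u (by linarith [hu.1]) (by linarith [hu.2])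
      have s3 : HasSum (fun n : ℕ => if n ∈ Finset.Ioc y x then
          b n * W (η ^ 2) (u - Real.log n) else 0)
          (∑ n ∈ Finset.Ioc y x, b n * W (η ^ 2) (u - Real.log n)) := by
        rw [← Finset.sum_congr rfl fun n hn => if_pos (e := (0 : ℝ)) hn]
        exact hasSum_sum_of_ne_finset_zero fun n hn => if_neg hn
      have s4 := hasSum_le (fun n => ?_) t1 (s3.add (s1.mul_left (128 * η ^ 2)))
      · have a4 : 128 * η ^ 2 * T' ≤ 128 * η * (9 * (c ^ 2 * (E * y))) :=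
          (mul_le_mul_of_nonneg_left a3 (by positivity)).trans
            (mul_le_mul_of_nonneg_right (by nlinarith) (by positivity))
        have a5 : 128 * η * (9 * (c ^ 2 * (E * y))) = 1152 * (c ^ 2 * (E * Z)) := by
          rw [hZ]; ring
        linarith [(abs_le.1 t2).1]
      · have c1 : 0 ≤ 128 * η ^ 2 * (b n * W 1 (u - Real.log n)) :=
          mul_nonneg (by positivity) (mul_nonneg (b0 n) (W_nonneg one_pos _))
        split_ifs with hn
        · linarith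
        · rw [zero_add, mul_left_comm]
          refine mul_le_mul_of_nonneg_left (W_tail h0 h1 ?_) (b0 n)
          rw [Finset.mem_Ioc, not_and_or, not_lt, not_le] at hn
          rcases hn with hn | hn
          · have : Real.log n ≤ A := by
              rcases Nat.eq_zero_or_pos n with rfl | hn0
              · simp; linarith
              · exact hA ▸ Real.log_le_log (by exact_mod_cast hn0) (by exact_mod_cast hn)
            exact le_abs.2 (Or.inl (by linarith [hu.1]))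
          · have : B ≤ Real.log n := hB ▸ Real.log_le_log hX0 (by exact_mod_cast hn.le)
            exact le_abs.2 (Or.inr (by linarith [hu.2]))
    have k2 := intervalIntegral.integral_mono_on (μ := volume) h2
      ((by fun_prop : Continuous _).intervalIntegrable _ _)
      ((cont_sum _ _ b).intervalIntegrable _ _) k1
    rw [int_exp, int_sum] at k2
    have k3 : ∑ n ∈ Finset.Ioc y x, b n * ∫ u in (A + η)..(B - η), W (η ^ 2) (u - Real.log n) ≤
        Θ * (2 * Real.pi) := by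
      rw [hΘ, Finset.sum_mul]
      exact Finset.sum_le_sum fun n _ => mul_le_mul_of_nonneg_left (int_le hl h2 _) (b0 n)
    have k4 : (x : ℝ) - y - 4 * Z ≤ Real.exp (B - η) - Real.exp (A + η) := by
      rw [sub_eq_add_neg B, Real.exp_add, Real.exp_add, eA, eB]
      have a1 := mul_le_mul_of_nonneg_left hη2 hX0.le
      have a2 := mul_le_mul_of_nonneg_left hη1 hY0.le
      linarith
    have k5 : (B - η - (A + η)) * (1200 * (c ^ 2 * (E * Z))) ≤ 1 * (1200 * (c ^ 2 * (E * Z))) :=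
      mul_le_mul_of_nonneg_right (by linarith) (by positivity)
    have k6 := mul_le_mul_of_nonneg_left k4 (show 0 ≤ 2 * Real.pi by linarith)
    have k7 : 2 * Real.pi * ((x : ℝ) - y - 4 * Z - 1200 * (c ^ 2 * (E * Z))) ≤
        2 * Real.pi * Θ := by
      have : 1200 * (c ^ 2 * (E * Z)) ≤ 2 * Real.pi * (1200 * (c ^ 2 * (E * Z))) :=
        le_mul_of_one_le_left (by positivity) (by linarith)
      linarith
    have k8 := le_of_mul_le_mul_left k7 (by linarith)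
    linarith
  · have k1 : (x : ℝ) ≤ y * (1 + 2 * (2 * η)) := by
      rw [← eB, ← eA]
      refine le_trans ?_ (mul_le_mul_of_nonneg_left (exp_le_lin (by linarith) (by linarith))
        (Real.exp_pos _).le)
      rw [← Real.exp_add]
      exact Real.exp_le_exp.2 (by linarith)
    linarith

theorem upp {b : ℕ → ℝ} {E c η Z A B : ℝ} {y x : ℕ} (b0 : ∀ n, 0 ≤ b n) (h0 : 0 < η)
    (h1 : η ≤ 1 / 2) (hc1 : 1 ≤ c) (hE : 1 ≤ E) (hY0 : (0 : ℝ) < y) (hYX : (y : ℝ) ≤ x)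
    (hX : (x : ℝ) ≤ 2 * y) (hA : A = Real.log y) (hB : B = Real.log x) (hA1 : 1 / 2 ≤ A)
    (hBA : B ≤ A + 1) (hZ : Z = y * η)
    (hT : ∀ u, A - η ≤ u → u ≤ B + η →
      ∃ T : ℝ, HasSum (fun n : ℕ => b n * W (η ^ 2) (u - Real.log n)) T ∧
        |T - 2 * Real.pi * Real.exp u| ≤ 17 * (c * (E * Z)))
    {Θ δ : ℝ} (hΘ : Θ = ∑ n ∈ Finset.Ioc y x, b n) (hΘ1 : Θ * η ≤ 2 * (1 / δ) * (E * y)) :
    Θ ≤ (x : ℝ) - y + 5 * Z + 34 * (c * (E * Z)) + 256 * (1 / δ * (E * Z)) := by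
  have hX0 : (0 : ℝ) < x := by linarith
  have hZ0 : 0 < Z := by rw [hZ]; positivity
  have hl : 0 < η ^ 2 := by positivity
  have eA : Real.exp A = y := hA ▸ Real.exp_log hY0
  have eB : Real.exp B = x := hB ▸ Real.exp_log hX0
  have hAB : A ≤ B := by rw [hA, hB]; exact Real.log_le_log hY0 hYX
  have pi3 := Real.pi_gt_three
  have hη1 := exp_le_lin h0.le (by linarith)
  have hη2 := Real.add_one_le_exp (-η)
  have hXZ : (x : ℝ) * η ≤ 2 * Z := by rw [hZ]; nlinarith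
  have a11 : 0 ≤ c * (E * Z) := by positivity
  have hc3 : c * (E * Z) ≤ c ^ 2 * (E * Z) :=
    mul_le_mul_of_nonneg_right (by nlinarith) (by positivity)
  have hF : ∀ n ∈ Finset.Ioc y x, (y : ℝ) ≤ n ∧ (n : ℝ) ≤ x := fun n hn =>
    ⟨by exact_mod_cast (Finset.mem_Ioc.1 hn).1.le, by exact_mod_cast (Finset.mem_Ioc.1 hn).2⟩
  have h2 : A - η ≤ B + η := by linarith
  have k1 : ∀ u ∈ Icc (A - η) (B + η), ∑ n ∈ Finset.Ioc y x, b n * W (η ^ 2) (u - Real.log n) ≤
      2 * Real.pi * Real.exp u + 17 * (c * (E * Z)) := by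
    intro u hu
    obtain ⟨T, t1, t2⟩ := hT u hu.1 hu.2
    have := sum_le_hasSum (Finset.Ioc y x)
      (fun n _ => mul_nonneg (b0 n) (W_nonneg hl _)) t1
    linarith [(abs_le.1 t2).2]
  have k2 := intervalIntegral.integral_mono_on (μ := volume) h2
    ((cont_sum _ _ b).intervalIntegrable _ _)
    ((by fun_prop : Continuous _).intervalIntegrable _ _) k1
  rw [int_exp, int_sum] at k2
  have k3 : Θ * (2 * Real.pi) ≤
      (∑ n ∈ Finset.Ioc y x, b n * ∫ u in (A - η)..(B + η), W (η ^ 2) (u - Real.log n)) +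
        Θ * (128 * η ^ 2 * (2 * Real.pi)) := by
    rw [hΘ, Finset.sum_mul, Finset.sum_mul, ← Finset.sum_add_distrib]
    refine Finset.sum_le_sum fun n hn => ?_
    rw [← mul_add]
    exact mul_le_mul_of_nonneg_left (le_int h0 h1
      (hA ▸ Real.log_le_log hY0 (hF n hn).1)
      (hB ▸ Real.log_le_log (by linarith [(hF n hn).1]) (hF n hn).2)) (b0 n)
  have k4 : Real.exp (B + η) - Real.exp (A - η) ≤ (x : ℝ) - y + 5 * Z := by
    rw [sub_eq_add_neg A, Real.exp_add, Real.exp_add, eA, eB]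
    have a1 := mul_le_mul_of_nonneg_left hη2 hY0.le
    have a2 := mul_le_mul_of_nonneg_left hη1 hX0.le
    linarith
  have k5 : (B + η - (A - η)) * (17 * (c * (E * Z))) ≤ 2 * (17 * (c * (E * Z))) :=
    mul_le_mul_of_nonneg_right (by linarith) (by positivity)
  have k6 := mul_le_mul_of_nonneg_left k4 (show 0 ≤ 2 * Real.pi by linarith)
  have k9 : Θ * (128 * η ^ 2) ≤ 256 * (1 / δ * (E * Z)) := by
    calc Θ * (128 * η ^ 2) = Θ * η * (128 * η) := by ring
      _ ≤ 2 * (1 / δ) * (E * y) * (128 * η) := mul_le_mul_of_nonneg_right hΘ1 (by positivity)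
      _ = _ := by rw [hZ]; ring
  have k10 := mul_le_mul_of_nonneg_left k9 (show 0 ≤ 2 * Real.pi by linarith)
  have k7 : 2 * Real.pi * Θ ≤ 2 * Real.pi * ((x : ℝ) - y + 5 * Z + 34 * (c * (E * Z)) +
      256 * (1 / δ * (E * Z))) := by
    have : 34 * (c * (E * Z)) ≤ 2 * Real.pi * (34 * (c * (E * Z))) :=
      le_mul_of_one_le_left (by positivity) (by linarith)
    linarith
  have k8 := le_of_mul_le_mul_left k7 (by linarith)
  linarith

theorem near {E c η Z y u e T : ℝ} (h0 : 0 < η) (h1 : η ≤ 1 / 2) (hc1 : 1 ≤ c) (hE : 1 ≤ E)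
    (hY0 : 0 < y) (hZ : Z = y * η) (hu1 : Real.exp u ≤ c * y) (hu2 : e ≤ c * (Z * (η ^ 2) ^ 2))
    (t2 : |T - 2 * Real.pi * Real.exp (u + (η ^ 2) ^ 2)| ≤ E * e / (η ^ 2) ^ 2) :
    |T - 2 * Real.pi * Real.exp u| ≤ 17 * (c * (E * Z)) := by
  have pi3 := Real.pi_gt_three
  have pi4 : Real.pi ≤ 4 := Real.pi_le_four
  have hZ0 : 0 < Z := by rw [hZ]; positivity
  have hZE : Z ≤ E * Z := le_mul_of_one_le_left hZ0.le hE
  have a1 : E * e / (η ^ 2) ^ 2 ≤ c * (E * Z) := by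
    rw [div_le_iff₀ (by positivity)]
    calc E * e ≤ E * (c * (Z * (η ^ 2) ^ 2)) := mul_le_mul_of_nonneg_left hu2 (by linarith)
      _ = _ := by ring
  have a2 : (η ^ 2) ^ 2 ≤ η := by
    rw [← pow_mul]
    exact pow_le_of_le_one h0.le (by linarith) (by norm_num)
  have a3 := exp_le_lin (z := (η ^ 2) ^ 2) (by positivity) (by linarith)
  have a5 := Real.exp_pos u
  have a6 : Real.exp u * η ≤ c * (E * Z) := by
    calc Real.exp u * η ≤ c * y * η := mul_le_mul_of_nonneg_right hu1 h0.le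
      _ = c * Z := by rw [hZ]; ring
      _ ≤ _ := mul_le_mul_of_nonneg_left hZE (by linarith)
  have a7 : Real.exp u ≤ Real.exp (u + (η ^ 2) ^ 2) := Real.exp_le_exp.2 (by
    linarith [sq_nonneg (η ^ 2)])
  have a8 : Real.exp (u + (η ^ 2) ^ 2) ≤ Real.exp u + 2 * (c * (E * Z)) := by
    rw [Real.exp_add]
    have := mul_le_mul_of_nonneg_left (a3.trans (show _ ≤ 1 + 2 * η by linarith)) a5.le
    linarith
  have a9 : 2 * Real.pi * (Real.exp (u + (η ^ 2) ^ 2) - Real.exp u) ≤ 8 * (2 * (c * (E * Z))) :=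
    mul_le_mul (by linarith) (by linarith) (by linarith) (by norm_num)
  have a10 : 0 ≤ 2 * Real.pi * (Real.exp (u + (η ^ 2) ^ 2) - Real.exp u) :=
    mul_nonneg (by linarith) (by linarith)
  have a11 : 0 ≤ c * (E * Z) := by positivity
  rw [abs_le] at t2 ⊢
  constructor <;> linarith [t2.1, t2.2]

theorem far {E c y u e T : ℝ} (hc : c = Real.exp 2) (hE : 1 ≤ E) (hY0 : 0 < y)
    (hu1 : Real.exp u ≤ c * y) (a2 : e ≤ c * y)
    (s2 : |T - 2 * Real.pi * Real.exp (u + 1 ^ 2)| ≤ E * e / 1 ^ 2) :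
    T ≤ 9 * (c ^ 2 * (E * y)) := by
  have pi4 : Real.pi ≤ 4 := Real.pi_le_four
  have hc1 : 1 ≤ c := hc ▸ Real.one_le_exp (by norm_num)
  have a1 : Real.exp (u + 1) ≤ c * (c * y) := by
    rw [Real.exp_add, mul_comm]
    exact mul_le_mul (hc ▸ Real.exp_le_exp.2 (by norm_num)) hu1 (Real.exp_pos _).le (by linarith)
  have b1 := (abs_le.1 s2).2
  rw [one_pow, div_one] at b1
  have b2 : 2 * Real.pi * Real.exp (u + 1) ≤ 8 * (c * (c * y)) :=
    mul_le_mul (by linarith) a1 (Real.exp_pos _).le (by norm_num)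
  have b3 : E * e ≤ E * (c * y) := mul_le_mul_of_nonneg_left a2 (by linarith)
  have b4 : c * (c * y) ≤ c ^ 2 * (E * y) := by
    rw [← mul_assoc, ← sq]
    exact mul_le_mul_of_nonneg_left (le_mul_of_one_le_left hY0.le hE) (by positivity)
  have b5 : E * (c * y) ≤ c ^ 2 * (E * y) := by
    rw [mul_left_comm]
    exact mul_le_mul_of_nonneg_right (le_self_pow₀ hc1 two_ne_zero) (by positivity)
  linarith

/-- **Tauberian step.** -/
theorem taub {σ : ℝ} (hσ0 : 0 ≤ σ) (hσ : σ < 1) : ∃ C : ℝ, 0 ≤ C ∧ ∀ (b : ℕ → ℝ) (E : ℝ), 1 ≤ E →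
    (∀ n, 0 ≤ b n) → (∀ n, b n ≤ E * Real.log n) →
    (∀ l u : ℝ, 0 < l → l ≤ 1 → 0 ≤ u →
      ∃ T : ℝ, HasSum (fun n : ℕ => b n * W l (u - Real.log n)) T ∧
        |T - 2 * Real.pi * Real.exp (u + l ^ 2)| ≤ E * Real.exp (u * σ) / l ^ 2) →
    ∀ y x : ℕ, 1 ≤ y → y ≤ x → x ≤ 2 * y →
      |∑ n ∈ Finset.Ioc y x, b n - ((x : ℝ) - y)| ≤ C * E * (y : ℝ) ^ (1 - (1 - σ) / 5) := by
  obtain ⟨δ, hδ⟩ : ∃ δ, δ = (1 - σ) / 5 := ⟨_, rfl⟩
  have hδ0 : 0 < δ := by linarith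
  have hδ1 : δ ≤ 1 := by linarith
  obtain ⟨c, hc⟩ : ∃ c, c = Real.exp 2 := ⟨_, rfl⟩
  have hc1 : 1 ≤ c := hc ▸ Real.one_le_exp (by norm_num)
  have hi : 0 < 1 / δ := by positivity
  refine ⟨256 * (1 / δ) + 4000 * c ^ 2, by positivity, fun b E hE b0 b1 H y x hy hyx hx => ?_⟩
  rw [← hδ]
  have hY : (1 : ℝ) ≤ y := by exact_mod_cast hy
  have hYX : (y : ℝ) ≤ x := by exact_mod_cast hyx
  have hX : (x : ℝ) ≤ 2 * y := by exact_mod_cast hx
  have hY0 : (0 : ℝ) < y := by linarith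
  have hX0 : (0 : ℝ) < x := by linarith
  obtain ⟨η, hη⟩ : ∃ η, η = (y : ℝ) ^ (-δ) := ⟨_, rfl⟩
  have h0 : 0 < η := hη ▸ Real.rpow_pos_of_pos hY0 _
  have e0 : (y : ℝ) ^ (1 - δ) = y * η := by
    rw [hη, sub_eq_add_neg, Real.rpow_add hY0, Real.rpow_one]
  have hlog : Real.log (2 * y) * η ≤ 2 * (1 / δ) := by
    have k1 := Real.log_le_rpow_div (show (0 : ℝ) ≤ 2 * y by positivity) hδ0
    have k2 : (2 : ℝ) ^ δ ≤ 2 := by
      simpa using Real.rpow_le_rpow_of_exponent_le (show (1 : ℝ) ≤ 2 by norm_num) hδ1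
    have k3 : (y : ℝ) ^ δ * η = 1 := by rw [hη, ← Real.rpow_add hY0]; simp
    rw [Real.mul_rpow (by norm_num) hY0.le] at k1
    calc Real.log (2 * y) * η ≤ 2 ^ δ * (y : ℝ) ^ δ / δ * η := mul_le_mul_of_nonneg_right k1 h0.le
      _ = 2 ^ δ * ((y : ℝ) ^ δ * η) * (1 / δ) := by ring
      _ ≤ 2 * (1 / δ) := by rw [k3, mul_one]; exact mul_le_mul_of_nonneg_right k2 hi.le
  have hF : ∀ n ∈ Finset.Ioc y x, (y : ℝ) ≤ n ∧ (n : ℝ) ≤ x := fun n hn =>
    ⟨by exact_mod_cast (Finset.mem_Ioc.1 hn).1.le, by exact_mod_cast (Finset.mem_Ioc.1 hn).2⟩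
  obtain ⟨Θ, hΘ⟩ : ∃ Θ, Θ = ∑ n ∈ Finset.Ioc y x, b n := ⟨_, rfl⟩
  have hΘ0 : 0 ≤ Θ := hΘ ▸ Finset.sum_nonneg fun n _ => b0 n
  have hΘ1 : Θ * η ≤ 2 * (1 / δ) * (E * y) := by
    have k1 : Θ ≤ (Finset.Ioc y x).card • (E * Real.log (2 * y)) := by
      rw [hΘ]
      refine Finset.sum_le_card_nsmul _ _ _ fun n hn => (b1 n).trans ?_
      exact mul_le_mul_of_nonneg_left (Real.log_le_log (by linarith [(hF n hn).1])
        (by linarith [(hF n hn).2])) (by linarith)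
    rw [Nat.card_Ioc, nsmul_eq_mul, Nat.cast_sub hyx] at k1
    have k2 : 0 ≤ Real.log (2 * y) := Real.log_nonneg (by linarith)
    calc Θ * η ≤ (y * (E * Real.log (2 * y))) * η :=
          mul_le_mul_of_nonneg_right (k1.trans (mul_le_mul_of_nonneg_right (by linarith)
            (by positivity))) h0.le
      _ = Real.log (2 * y) * η * (E * y) := by ring
      _ ≤ _ := mul_le_mul_of_nonneg_right hlog (by positivity)
  rw [e0, ← hΘ]
  obtain ⟨Z, hZ⟩ : ∃ Z, Z = (y : ℝ) * η := ⟨_, rfl⟩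
  have hZ0 : 0 < Z := by rw [hZ]; positivity
  have hZE : Z ≤ E * Z := le_mul_of_one_le_left hZ0.le hE
  have hc2 : E * Z ≤ c ^ 2 * (E * Z) := le_mul_of_one_le_left (by linarith) (one_le_pow₀ hc1)
  have hc3 : c * (E * Z) ≤ c ^ 2 * (E * Z) :=
    mul_le_mul_of_nonneg_right (le_self_pow₀ hc1 two_ne_zero) (by linarith only [hZE, hZ0])
  have hi2 : 0 ≤ 1 / δ * (E * Z) := by positivity
  have egoal : (256 * (1 / δ) + 4000 * c ^ 2) * E * (y * η) =
      256 * (1 / δ * (E * Z)) + 4000 * (c ^ 2 * (E * Z)) := by rw [hZ]; ring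
  rw [egoal, abs_le]
  rcases lt_or_ge (1 / 2) η with h1 | h1
  · have k1 : (y : ℝ) ≤ 2 * Z := by
      have := mul_le_mul_of_nonneg_left h1.le hY0.le
      linarith only [this, hZ]
    have k2 : Θ ≤ 8 * (1 / δ * (E * Z)) := by
      have a1 := mul_le_mul_of_nonneg_left h1.le hΘ0
      have a2 : 1 / δ * (E * y) ≤ 1 / δ * (E * (2 * Z)) :=
        mul_le_mul_of_nonneg_left (mul_le_mul_of_nonneg_left k1 (by linarith only [hE])) hi.le
      linarith only [a1, a2, hΘ1]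
    constructor <;> linarith only [k1, k2, hΘ0, hYX, hX, hZE, hc2, hi2, hZ0]
  have hl : 0 < η ^ 2 := by positivity
  have hl1 : η ^ 2 ≤ 1 := pow_le_one₀ h0.le (by linarith only [h1])
  have hY2 : (2 : ℝ) ≤ y := by
    by_contra h
    have : y = 1 := by
      have : y < 2 := by exact_mod_cast not_le.1 h
      omega
    rw [this] at hη
    simp at hη
    linarith
  obtain ⟨A, hA⟩ : ∃ A, A = Real.log y := ⟨_, rfl⟩
  obtain ⟨B, hB⟩ : ∃ B, B = Real.log x := ⟨_, rfl⟩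
  have eA : Real.exp A = y := hA ▸ Real.exp_log hY0
  have eB : Real.exp B = x := hB ▸ Real.exp_log hX0
  have hAB : A ≤ B := by rw [hA, hB]; exact Real.log_le_log hY0 hYX
  have hA1 : 1 / 2 ≤ A := by
    have := Real.log_le_log (by norm_num) hY2
    linarith [Real.log_two_gt_d9]
  have hBA : B ≤ A + 1 := by
    have := Real.log_le_log hX0 hX
    rw [Real.log_mul (by norm_num) hY0.ne'] at this
    linarith [Real.log_two_lt_d9]
  have hP : Real.exp (A * σ) = Z * (η ^ 2) ^ 2 := by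
    have : η = Real.exp (A * -δ) := by rw [hη, Real.rpow_def_of_pos hY0, hA]
    rw [hZ, ← eA, this, ← pow_mul, ← Real.exp_nat_mul, ← Real.exp_add, ← Real.exp_add]
    congr 1
    rw [hδ]
    push_cast
    ring
  have hu1 : ∀ u, u ≤ B + η → Real.exp u ≤ c * y := fun u hu => by
    rw [hc, ← eA, ← Real.exp_add]
    exact Real.exp_le_exp.2 (by linarith)
  have hu2 : ∀ u, u ≤ B + η → Real.exp (u * σ) ≤ c * (Z * (η ^ 2) ^ 2) := fun u hu => by
    rw [hc, ← hP, ← Real.exp_add]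
    refine Real.exp_le_exp.2 ?_
    have t1 : (u - A) * σ ≤ 2 * σ := mul_le_mul_of_nonneg_right (by linarith only [hu, hBA, h1]) hσ0
    linarith only [t1, hσ]
  have hT : ∀ u, A - η ≤ u → u ≤ B + η →
      ∃ T : ℝ, HasSum (fun n : ℕ => b n * W (η ^ 2) (u - Real.log n)) T ∧
        |T - 2 * Real.pi * Real.exp u| ≤ 17 * (c * (E * Z)) := by
    intro u k1 k2
    obtain ⟨T, t1, t2⟩ := H (η ^ 2) u hl hl1 (by linarith only [k1, hA1, h1])
    exact ⟨T, t1, near h0 h1 hc1 hE hY0 hZ (hu1 u k2) (hu2 u k2) t2⟩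
  have hT1 : ∀ u, 0 ≤ u → u ≤ B + η → ∃ T : ℝ,
      HasSum (fun n : ℕ => b n * W 1 (u - Real.log n)) T ∧ T ≤ 9 * (c ^ 2 * (E * y)) := by
    intro u u0 u1
    obtain ⟨T', s1, s2⟩ := H 1 u one_pos le_rfl u0
    exact ⟨T', s1, far hc hE hY0 (hu1 u u1) (le_trans (Real.exp_le_exp.2
      (mul_le_of_le_one_right u0 hσ.le)) (hu1 u u1)) s2⟩
  have l1 := low b0 h0 h1 hc1 hE hY0 hYX hX hA hB hA1 hBA hZ hT hT1 hΘ
  have l2 := upp b0 h0 h1 hc1 hE hY0 hYX hX hA hB hA1 hBA hZ hT hΘ hΘ1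
  constructor <;> linarith only [l1, l2, hZE, hc2, hc3, hi2, hZ0]

end Vale.Agent.P004S.Ch
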